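import Vale.Agent.P192.H630.Full

/-! # P192: the Cayley graph of a free group is a tree; full groups of free actions of free groups (helper630) -/

namespace Vale.Agent.P192.H630

open SimpleGraph

universe u w v u'

theorem isAcyclic_of_parent {V : Type u} (T : SimpleGraph V) (ℓ : V → ℕ) (par : V → V)
    (h : ∀ x y, T.Adj x y → (ℓ x < ℓ y ∧ x = par y) ∨ (ℓ y < ℓ x ∧ y = par x)) : T.IsAcyclic := by
  classical
  intro v c hc
  obtain ⟨m, hm, hmax⟩ := c.support.toFinset.exists_max_image ℓ ⟨v, by simp⟩
  rw [List.mem_toFinset] at hm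
  have hmax' : ∀ x ∈ c.support, ℓ x ≤ ℓ m := fun x hx => hmax x (List.mem_toFinset.2 hx)
  have hc' : (c.rotate m hm).IsCycle := hc.rotate hm
  have hnil : ¬ (c.rotate m hm).Nil := hc'.not_nil
  have hsup : ∀ x, x ∈ (c.rotate m hm).support → x ∈ c.support := fun x hx =>
    (Walk.mem_support_rotate_iff c m hm).1 hx
  have e1 : (c.rotate m hm).snd = par m := by
    rcases h _ _ ((c.rotate m hm).adj_snd hnil) with h | h
    · have := hmax' _ (hsup _ ((c.rotate m hm).getVert_mem_support 1))
      exact absurd h.1 (not_lt.2 this)
    · exact h.2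
  have e2 : (c.rotate m hm).penultimate = par m := by
    rcases h _ _ ((c.rotate m hm).adj_penultimate hnil) with h | h
    · exact h.2
    · have := hmax' _ (hsup _ ((c.rotate m hm).getVert_mem_support ((c.rotate m hm).length - 1)))
      exact absurd h.1 (not_lt.2 this)
  exact hc'.snd_ne_penultimate (e1.trans e2.symm)

/-- the Cayley graph of a free group is a tree -/
theorem cay_free_isTree (α : Type u) : (cay (Set.range (FreeGroup.of : α → FreeGroup α))).IsTree := by
  classical
  rw [SimpleGraph.isTree_iff]
  constructor
  · have h1 : ∀ L : List (α × Bool), (cay (Set.range (FreeGroup.of : α → FreeGroup α))).Reachable (FreeGroup.mk L) 1 := by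
      intro L
      induction L with
      | nil => exact Reachable.refl _
      | cons x L ih =>
        refine Reachable.trans ?_ ih
        obtain ⟨a, b⟩ := x
        by_cases e : FreeGroup.mk ((a, b) :: L) = FreeGroup.mk L
        · rw [e]
        · refine Adj.reachable ⟨e, FreeGroup.of a, ⟨a, rfl⟩, ?_⟩
          cases b with
          | true =>
            right
            rfl
          | false =>
            left
            rw [show FreeGroup.mk ((a, false) :: L) = (FreeGroup.of a)⁻¹ * FreeGroup.mk L from rfl]
            group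
    refine (SimpleGraph.connected_iff _).2 ⟨fun a b => ?_, ⟨1⟩⟩
    have ha := h1 a.toWord
    have hb := h1 b.toWord
    rw [FreeGroup.mk_toWord] at ha hb
    exact ha.trans hb.symm
  · have key : ∀ (a : α) (x : FreeGroup α),
        (x.toWord.length < (FreeGroup.of a * x).toWord.length ∧ x = FreeGroup.mk (FreeGroup.of a * x).toWord.tail) ∨
        ((FreeGroup.of a * x).toWord.length < x.toWord.length ∧ FreeGroup.of a * x = FreeGroup.mk x.toWord.tail) := by
      intro a x
      have h1 : (FreeGroup.of a * x).toWord = FreeGroup.reduce ((a, true) :: x.toWord) := by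
        rw [FreeGroup.toWord_mul, FreeGroup.toWord_of]; rfl
      rw [FreeGroup.reduce.cons, FreeGroup.reduce_toWord] at h1
      have hx : FreeGroup.mk x.toWord = x := FreeGroup.mk_toWord
      have hax : FreeGroup.mk (FreeGroup.of a * x).toWord = FreeGroup.of a * x := FreeGroup.mk_toWord
      cases hw : x.toWord with
      | nil =>
        rw [hw] at h1 hx
        left
        rw [h1]
        simp [hx]
      | cons y L =>
        rw [hw] at h1 hx
        by_cases e : (a = y.1 ∧ true = !y.2)
        · right
          simp only [e, and_self, if_true] at h1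
          have h2 : (FreeGroup.of a * x).toWord = L := by
            rw [e.1]; exact h1
          rw [h2] at hax ⊢
          exact ⟨by simp, hax.symm⟩
        · left
          simp only [e, if_false] at h1
          rw [h1]
          simp [hx]
    refine isAcyclic_of_parent _ (fun x => x.toWord.length) (fun x => FreeGroup.mk x.toWord.tail) ?_
    rintro x y ⟨-, _, ⟨a, rfl⟩, h | h⟩
    · rw [h]; exact key a x
    · rw [h]; exact (key a y).symm

/-- **full groups of free actions of free groups** -/
theorem free_group_image (G : Type v) [Group G] [Group.IsFinitelyPresented G] (hG : IsMulTorsion G)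
    (α : Type u) [Finite α] (Y : Type u') [MulAction (FreeGroup α) Y]
    (hfree : ∀ (f : FreeGroup α) (y : Y), f • y = y → f = 1)
    (ρ : G →* Equiv.Perm Y) (hb : ∀ g : G, ∃ E : Set (FreeGroup α), E.Finite ∧ ∀ y, ∃ f ∈ E, ρ g y = f • y) :
    Finite ρ.range := by
  obtain ⟨Δ, hΔ⟩ := cay_degree (Set.range (FreeGroup.of : α → FreeGroup α)) (Set.finite_range _)
  obtain ⟨h1, h2, h3⟩ := tree_bags (cay (Set.range (FreeGroup.of : α → FreeGroup α))) Δ hΔ
  exact free_action_image G hG (FreeGroup α) (Set.range FreeGroup.of) (Set.finite_range _)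
    (FreeGroup.closure_range_of α) (FreeGroup α) _ _ (Δ + 1) (cay_free_isTree α) h1 h2 h3 Y hfree ρ hb

theorem walk_of_edist {X : Type u} {Γ : SimpleGraph X} {c : ℕ} {x y : X} (h : Γ.edist x y ≤ c) :
    ∃ p : Γ.Walk x y, p.length ≤ c := by
  obtain ⟨p, hp⟩ := SimpleGraph.exists_walk_of_edist_ne_top (ne_top_of_le_ne_top (ENat.natCast_ne_top c) h)
  refine ⟨p, ?_⟩
  rw [← hp] at h
  exact_mod_cast h

end Vale.Agent.P192.H630
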