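import Vale.Agent.P192.H630.Wob

/-! # P192: full groups of free actions of virtually free groups (helper630) -/

namespace Vale.Agent.P192.H630

open SimpleGraph

universe u w v u'

/-- a finitely presented group has a finite generating set -/
theorem exists_gens (G : Type v) [Group G] [Group.IsFinitelyPresented G] :
    ∃ S : Set G, S.Finite ∧ Subgroup.closure S = ⊤ := by
  obtain ⟨n, φ, hφ, -⟩ := ‹Group.IsFinitelyPresented G›.out
  refine ⟨Set.range (fun i : Fin n => φ (FreeGroup.of i)), Set.finite_range _, ?_⟩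
  have h1 : Set.range (fun i : Fin n => φ (FreeGroup.of i)) =
      φ '' (Set.range (FreeGroup.of : Fin n → FreeGroup (Fin n))) := by
    rw [← Set.range_comp]; rfl
  rw [h1, ← MonoidHom.map_closure, FreeGroup.closure_range_of, ← MonoidHom.range_eq_map,
    MonoidHom.range_eq_top.2 hφ]

theorem exists_bound {G : Type v} {S : Set G} (hS : S.Finite) (c : G → ℕ) : ∃ c0, ∀ s ∈ S, c s ≤ c0 := by
  obtain ⟨b, hb⟩ := (hS.image c).bddAbove
  exact ⟨b, fun w hw => hb ⟨w, hw, rfl⟩⟩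

/-- **wobbling groups**: bounded degree, bounded treewidth -/
theorem wobbling_image (G : Type v) [Group G] [Group.IsFinitelyPresented G] (hG : IsMulTorsion G)
    (X : Type u) (Γ : SimpleGraph X) (Δ : ℕ) (hΔ : ∀ x, (Γ.neighborSet x).encard ≤ Δ)
    (V : Type w) (T : SimpleGraph V) (B : V → Set X) (k : ℕ) (hT : T.IsTree)
    (hB : ∀ t, (B t).encard ≤ k)
    (hconn : ∀ x : X, (T.induce {t | x ∈ B t}).Connected)
    (hcov : ∀ x y : X, Γ.Adj x y → ∃ t, x ∈ B t ∧ y ∈ B t)
    (ρ : G →* Equiv.Perm X) (hb : ∀ g : G, ∃ c : ℕ, ∀ x, ∃ p : Γ.Walk x (ρ g x), p.length ≤ c) :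
    Finite ρ.range := by
  obtain ⟨S, hSf, hS⟩ := exists_gens G
  choose c hc using hb
  obtain ⟨c0, hc0⟩ := exists_bound hSf c
  obtain ⟨N, h1, h2, h3⟩ := uniform_wobbling.{u, w, v} G hG S hS k Δ c0
  refine range_finite_of_kernel ρ N h2 fun g hg => h3 X Γ V T B hT hB hconn hcov hΔ ρ ?_ g hg
  intro s hs x
  obtain ⟨p, hp⟩ := hc s x
  exact ⟨p, hp.trans (hc0 s hs)⟩

/-- a tree of bounded degree is a graph of bounded treewidth: closed neighbourhoods as bags -/
theorem tree_bags {X : Type u} (T : SimpleGraph X) (Δ : ℕ) (hΔ : ∀ x, (T.neighborSet x).encard ≤ Δ) :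
    (∀ t, (insert t (T.neighborSet t) : Set X).encard ≤ ((Δ + 1 : ℕ) : ℕ∞)) ∧
    (∀ x : X, (T.induce {t | x ∈ (insert t (T.neighborSet t) : Set X)}).Connected) ∧
    (∀ x y : X, T.Adj x y → ∃ t, x ∈ (insert t (T.neighborSet t) : Set X) ∧
      y ∈ (insert t (T.neighborSet t) : Set X)) := by
  refine ⟨fun t => ?_, fun x => ?_, fun x y h => ⟨x, Set.mem_insert _ _, Set.mem_insert_of_mem _ h⟩⟩
  · refine (Set.encard_insert_le _ _).trans ?_
    push_cast
    gcongr
    exact hΔ t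
  · have hx : x ∈ {t | x ∈ (insert t (T.neighborSet t) : Set X)} := Set.mem_insert _ _
    have h1 : ∀ a : {t | x ∈ (insert t (T.neighborSet t) : Set X)},
        (T.induce {t | x ∈ (insert t (T.neighborSet t) : Set X)}).Reachable a ⟨x, hx⟩ := by
      rintro ⟨t, ht⟩
      rcases Set.mem_insert_iff.1 ht with h | h
      · have e : (⟨t, ht⟩ : {t | x ∈ (insert t (T.neighborSet t) : Set X)}) = ⟨x, hx⟩ := Subtype.ext h.symm
        rw [e]
      · exact (show (T.induce {t | x ∈ (insert t (T.neighborSet t) : Set X)}).Adj ⟨t, ht⟩ ⟨x, hx⟩ from h).reachable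
    exact (SimpleGraph.connected_iff _).2 ⟨fun a b => (h1 a).trans (h1 b).symm, ⟨⟨x, hx⟩⟩⟩

/-- **wobbling groups of trees of bounded degree** -/
theorem wobbling_tree (G : Type v) [Group G] [Group.IsFinitelyPresented G] (hG : IsMulTorsion G)
    (X : Type u) (T : SimpleGraph X) (hT : T.IsTree) (Δ : ℕ) (hΔ : ∀ x, (T.neighborSet x).encard ≤ Δ)
    (ρ : G →* Equiv.Perm X) (hb : ∀ g : G, ∃ c : ℕ, ∀ x, ∃ p : T.Walk x (ρ g x), p.length ≤ c) :
    Finite ρ.range := by
  obtain ⟨h1, h2, h3⟩ := tree_bags T Δ hΔ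
  exact wobbling_image G hG X T Δ hΔ X T _ (Δ + 1) hT h1 h2 h3 ρ hb

/-- the Cayley graph of `F` (left multiplication by the elements of `A`) -/
def cay {F : Type u} [Group F] (A : Set F) : SimpleGraph F where
  Adj g h := g ≠ h ∧ ∃ a ∈ A, h = a * g ∨ g = a * h
  symm := ⟨fun g h ⟨h1, a, ha, h2⟩ => ⟨h1.symm, a, ha, h2.symm⟩⟩
  loopless := ⟨fun g h => h.1 rfl⟩

theorem cay_near {F : Type u} [Group F] (A : Set F) {h : F} (hh : h ∈ Subgroup.closure A) :
    ∃ c : ℕ, ∀ f : F, ∃ p : (cay A).Walk f (h * f), p.length ≤ c := by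
  have step : ∀ a ∈ A, ∀ f : F, (∃ p : (cay A).Walk f (a * f), p.length ≤ 1) ∧
      (∃ p : (cay A).Walk f (a⁻¹ * f), p.length ≤ 1) := by
    intro a ha f
    constructor
    · by_cases e : f = a * f
      · rw [← e]; exact ⟨Walk.nil, Nat.zero_le _⟩
      · exact ⟨(show (cay A).Adj f (a * f) from ⟨e, a, ha, Or.inl rfl⟩).toWalk, by simp⟩
    · by_cases e : f = a⁻¹ * f
      · rw [← e]; exact ⟨Walk.nil, Nat.zero_le _⟩
      · exact ⟨(show (cay A).Adj f (a⁻¹ * f) from ⟨e, a, ha, Or.inr (by group)⟩).toWalk, by simp⟩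
  induction hh using Subgroup.closure_induction with
  | mem a ha => exact ⟨1, fun f => (step a ha f).1⟩
  | one => exact ⟨0, fun f => by rw [one_mul]; exact ⟨Walk.nil, le_rfl⟩⟩
  | mul x y _ _ hx hy =>
    obtain ⟨c, hc⟩ := hx
    obtain ⟨d, hd⟩ := hy
    refine ⟨d + c, fun f => ?_⟩
    obtain ⟨p, hp⟩ := hd f
    obtain ⟨q, hq⟩ := hc (y * f)
    rw [mul_assoc]
    exact ⟨p.append q, by rw [Walk.length_append]; omega⟩
  | inv x _ hx =>
    obtain ⟨c, hc⟩ := hx
    refine ⟨c, fun f => ?_⟩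
    have h := hc (x⁻¹ * f)
    rw [mul_inv_cancel_left] at h
    obtain ⟨p, hp⟩ := h
    exact ⟨p.reverse, by rwa [Walk.length_reverse]⟩

theorem cay_degree {F : Type u} [Group F] (A : Set F) (hA : A.Finite) :
    ∃ Δ : ℕ, ∀ g, ((cay A).neighborSet g).encard ≤ Δ := by
  obtain ⟨n, hn⟩ : ∃ n : ℕ, A.encard = n := ⟨_, hA.encard_eq_coe_toFinset_card⟩
  refine ⟨n + n, fun g => ?_⟩
  have h1 : (cay A).neighborSet g ⊆ (fun a => a * g) '' A ∪ (fun a => a⁻¹ * g) '' A := by
    rintro h ⟨-, a, ha, h2 | h2⟩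
    · exact Or.inl ⟨a, ha, h2.symm⟩
    · refine Or.inr ⟨a, ha, ?_⟩
      show a⁻¹ * g = h
      rw [h2]; group
  refine (Set.encard_le_encard h1).trans ((Set.encard_union_le _ _).trans ?_)
  push_cast
  have h2 := Set.encard_image_le (fun a => a * g) A
  have h3 := Set.encard_image_le (fun a => a⁻¹ * g) A
  rw [hn] at h2 h3
  exact add_le_add h2 h3

/-- **full groups of free actions** of groups whose Cayley graph has bounded treewidth (virtually free groups) -/
theorem free_action_image (G : Type v) [Group G] [Group.IsFinitelyPresented G] (hG : IsMulTorsion G)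
    (F : Type u) [Group F] (A : Set F) (hA : A.Finite) (hgen : Subgroup.closure A = ⊤)
    (V : Type w) (T : SimpleGraph V) (B : V → Set F) (k : ℕ) (hT : T.IsTree)
    (hB : ∀ t, (B t).encard ≤ k)
    (hconn : ∀ x : F, (T.induce {t | x ∈ B t}).Connected)
    (hcov : ∀ x y : F, (cay A).Adj x y → ∃ t, x ∈ B t ∧ y ∈ B t)
    (Y : Type u') [MulAction F Y] (hfree : ∀ (f : F) (y : Y), f • y = y → f = 1)
    (ρ : G →* Equiv.Perm Y) (hb : ∀ g : G, ∃ E : Set F, E.Finite ∧ ∀ y, ∃ f ∈ E, ρ g y = f • y) :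
    Finite ρ.range := by
  obtain ⟨S, hSf, hS⟩ := exists_gens G
  obtain ⟨Δ, hΔ⟩ := cay_degree A hA
  have hinj : ∀ (f f' : F) (y : Y), f • y = f' • y → f = f' := by
    intro f f' y h
    have h1 : (f'⁻¹ * f) • y = y := by rw [mul_smul, h, inv_smul_smul]
    have h2 := hfree _ _ h1
    rw [inv_mul_eq_one] at h2
    exact h2.symm
  -- displacement of the elements of `S`
  have hd : ∀ g : G, ∃ c : ℕ, ∀ y, ∃ f : F, ρ g y = f • y ∧
      ∀ x : F, ∃ p : (cay A).Walk x (f * x), p.length ≤ c := by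
    intro g
    obtain ⟨E, hE, h1⟩ := hb g
    have h2 : ∀ f : F, ∃ c : ℕ, ∀ x : F, ∃ p : (cay A).Walk x (f * x), p.length ≤ c :=
      fun f => cay_near A (hgen ▸ Subgroup.mem_top f)
    choose c hc using h2
    obtain ⟨c0, hc0⟩ := exists_bound hE c
    refine ⟨c0, fun y => ?_⟩
    obtain ⟨f, hf, hy⟩ := h1 y
    refine ⟨f, hy, fun x => ?_⟩
    obtain ⟨p, hp⟩ := hc f x
    exact ⟨p, hp.trans (hc0 f hf)⟩
  choose c hc using hd
  obtain ⟨c0, hc0⟩ := exists_bound hSf c
  obtain ⟨N, h1, h2, h3⟩ := uniform_wobbling.{u, w, v} G hG S hS k Δ c0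
  refine range_finite_of_kernel ρ N h2 fun g hg => ?_
  ext1 y
  choose θ hθ1 hθ2 using fun g : G => hc g
  -- the action on `F` through the orbit of `y`
  let act : MulAction G F :=
    { smul := fun g f => θ g (f • y) * f
      one_smul := fun f => by
        refine hinj _ _ y ?_
        show (θ 1 (f • y) * f) • y = f • y
        rw [mul_smul, ← hθ1, map_one, Equiv.Perm.one_apply]
      mul_smul := fun g g' f => by
        refine hinj _ _ y ?_
        show (θ (g * g') (f • y) * f) • y = (θ g ((θ g' (f • y) * f) • y) * (θ g' (f • y) * f)) • y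
        rw [mul_smul, ← hθ1, mul_smul, ← hθ1, map_mul, Equiv.Perm.mul_apply, mul_smul, ← hθ1] }
  have hact : ∀ (g : G) (f : F), (act.smul g f) • y = ρ g (f • y) := by
    intro g f
    show (θ g (f • y) * f) • y = ρ g (f • y)
    rw [mul_smul, ← hθ1]
  have key := h3 F (cay A) V T B hT hB hconn hcov hΔ (@MulAction.toPermHom G F _ act) ?_ g hg
  · have h4 : act.smul g 1 = 1 := by
      have := congrArg (fun e : Equiv.Perm F => e 1) key
      exact this
    have h5 := hact g 1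
    rw [h4, one_smul] at h5
    rw [Equiv.Perm.one_apply]
    exact h5.symm
  · intro s hs x
    obtain ⟨p, hp⟩ := hθ2 s (x • y) x
    exact ⟨p, hp.trans (hc0 s hs)⟩

end Vale.Agent.P192.H630
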