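import Vale.Agent.P192.Bdl.B1

/-! # P192: permutations with bounded displacement of graphs of bounded degree and bounded treewidth (helper630) -/

namespace Vale.Agent.P192.H630

open SimpleGraph

universe u w v

/-- the points at distance at most `c` from `x` -/
def near {X : Type u} (Γ : SimpleGraph X) (c : ℕ) (x : X) : Set X := {y | ∃ p : Γ.Walk x y, p.length ≤ c}

theorem near_self {X : Type u} (Γ : SimpleGraph X) (c : ℕ) (x : X) : x ∈ near Γ c x :=
  ⟨Walk.nil, Nat.zero_le _⟩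

theorem near_symm {X : Type u} {Γ : SimpleGraph X} {c : ℕ} {x y : X} (h : y ∈ near Γ c x) : x ∈ near Γ c y := by
  obtain ⟨p, hp⟩ := h
  exact ⟨p.reverse, by rwa [Walk.length_reverse]⟩

theorem biUnion_le {α β : Type*} (s : Set α) (f : α → Set β) (a m : ℕ) (hs : s.encard ≤ a)
    (hf : ∀ x ∈ s, (f x).encard ≤ m) : (⋃ x ∈ s, f x).encard ≤ ((a * m : ℕ) : ℕ∞) := by
  have hfin : s.Finite := Set.finite_of_encard_le_coe hs
  refine (hfin.encard_biUnion_le f).trans ?_
  rw [finsum_mem_eq_finite_toFinset_sum _ hfin]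
  calc ∑ i ∈ hfin.toFinset, (f i).encard ≤ ∑ i ∈ hfin.toFinset, (m : ℕ∞) :=
        Finset.sum_le_sum fun i hi => hf i (hfin.mem_toFinset.1 hi)
    _ = (hfin.toFinset.card : ℕ∞) * m := by rw [Finset.sum_const, nsmul_eq_mul]
    _ ≤ (a : ℕ∞) * m := by
        gcongr
        rw [hfin.encard_eq_coe_toFinset_card] at hs
        exact_mod_cast hs
    _ = ((a * m : ℕ) : ℕ∞) := by push_cast; rfl

theorem near_card {X : Type u} (Γ : SimpleGraph X) (Δ : ℕ) (hΔ : ∀ x, (Γ.neighborSet x).encard ≤ Δ) (c : ℕ) :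
    ∀ x : X, (near Γ c x).encard ≤ (((Δ + 1) ^ c : ℕ) : ℕ∞) := by
  induction c with
  | zero =>
    intro x
    have : near Γ 0 x ⊆ {x} := by
      rintro y ⟨p, hp⟩
      exact (Walk.eq_of_length_eq_zero (Nat.le_zero.1 hp)).symm
    refine (Set.encard_le_encard this).trans ?_
    rw [Set.encard_singleton]
    simp
  | succ c ih =>
    intro x
    have h1 : near Γ (c + 1) x ⊆ ⋃ y ∈ (insert x (Γ.neighborSet x) : Set X), near Γ c y := by
      rintro y ⟨p, hp⟩
      cases p with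
      | nil => exact Set.mem_biUnion (Set.mem_insert _ _) (near_self Γ c x)
      | cons h q =>
        refine Set.mem_biUnion (Set.mem_insert_of_mem _ h) ⟨q, ?_⟩
        rw [Walk.length_cons] at hp
        omega
    refine (Set.encard_le_encard h1).trans ?_
    have h2 : (insert x (Γ.neighborSet x) : Set X).encard ≤ ((Δ + 1 : ℕ) : ℕ∞) := by
      refine (Set.encard_insert_le _ _).trans ?_
      push_cast
      gcongr
      exact hΔ x
    have h3 := biUnion_le _ (near Γ c) (Δ + 1) ((Δ + 1) ^ c) h2 fun y _ => ih y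
    rwa [pow_succ, mul_comm]

theorem reach_up {V : Type w} {T : SimpleGraph V} {A A' : Set V} (hAA : A ⊆ A') (hA : (T.induce A).Connected)
    {t t' : V} (ht : t ∈ A) (ht' : t' ∈ A) :
    (T.induce A').Reachable ⟨t, hAA ht⟩ ⟨t', hAA ht'⟩ :=
  (hA.preconnected ⟨t, ht⟩ ⟨t', ht'⟩).map (SimpleGraph.induceHomOfLE T hAA).toHom

theorem reach_walk {X : Type u} {Γ : SimpleGraph X} {V : Type w} {T : SimpleGraph V} {B : V → Set X}
    (hconn : ∀ x : X, (T.induce {t | x ∈ B t}).Connected)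
    (hcov : ∀ x y : X, Γ.Adj x y → ∃ t, x ∈ B t ∧ y ∈ B t) (c : ℕ) {y : X} {t0 : V} (ht0 : y ∈ B t0) :
    ∀ {x : X} (p : Γ.Walk x y) (hp : p.length ≤ c) (t : V) (ht : x ∈ B t),
      (T.induce {t | ∃ u ∈ B t, y ∈ near Γ c u}).Reachable ⟨t, x, ht, p, hp⟩ ⟨t0, y, ht0, near_self Γ c y⟩ := by
  intro x p
  induction p with
  | @nil a =>
    intro hp t ht
    have hsub : {t | a ∈ B t} ⊆ {t | ∃ u ∈ B t, a ∈ near Γ c u} := fun t ht => ⟨a, ht, near_self Γ c a⟩
    exact reach_up hsub (hconn _) ht ht0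
  | @cons a b d h q ih =>
    intro hp t ht
    rw [Walk.length_cons] at hp
    obtain ⟨t', h1, h2⟩ := hcov a b h
    have hsub : {t | a ∈ B t} ⊆ {t | ∃ u ∈ B t, d ∈ near Γ c u} :=
      fun t ht => ⟨a, ht, Walk.cons h q, by rw [Walk.length_cons]; exact hp⟩
    have h3 := reach_up hsub (hconn a) ht h1
    exact h3.trans (ih ht0 (by omega) t' h2)

/-- **uniform form**: bounded displacement of the generators, bounded degree, bounded treewidth -/
theorem uniform_wobbling (G : Type v) [Group G] [Group.IsFinitelyPresented G]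
    (hG : IsMulTorsion G) (S : Set G) (hS : Subgroup.closure S = ⊤) (k Δ c : ℕ) :
    ∃ N : Subgroup G, N.Normal ∧ N.FiniteIndex ∧
      ∀ (X : Type u) (Γ : SimpleGraph X) (V : Type w) (T : SimpleGraph V) (B : V → Set X), T.IsTree →
        (∀ t, (B t).encard ≤ k) →
        (∀ x : X, (T.induce {t | x ∈ B t}).Connected) →
        (∀ x y : X, Γ.Adj x y → ∃ t, x ∈ B t ∧ y ∈ B t) →
        (∀ x, (Γ.neighborSet x).encard ≤ Δ) →
        ∀ ρ : G →* Equiv.Perm X, (∀ s ∈ S, ∀ x, ∃ p : Γ.Walk x (ρ s x), p.length ≤ c) →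
          ∀ g ∈ N, ρ g = 1 := by
  obtain ⟨N, h1, h2, h3⟩ := uniform_treewidth.{u, v, w} G hG S hS (k * (Δ + 1) ^ c)
  refine ⟨N, h1, h2, ?_⟩
  intro X Γ V T B hT hB hconn hcov hΔ ρ hρ g hg
  let act : MulAction G X := MulAction.compHom X ρ
  have hact : ∀ (g : G) (x : X), g • x = ρ g x := fun _ _ => rfl
  ext x
  rw [Equiv.Perm.one_apply, ← hact]
  -- the orbit of x
  have key := h3 (MulAction.orbit G x) V T
    (fun t => {y | ∃ u ∈ B t, (y : X) ∈ near Γ c u}) hT ?_ ?_ ?_ g hg ⟨x, MulAction.mem_orbit_self x⟩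
  · exact congrArg Subtype.val key
  · intro t
    have h4 : (⋃ u ∈ B t, near Γ c u).encard ≤ ((k * (Δ + 1) ^ c : ℕ) : ℕ∞) :=
      biUnion_le _ _ _ _ (hB t) fun u _ => near_card Γ Δ hΔ c u
    refine le_trans ?_ h4
    have h5 : ((fun y : MulAction.orbit G x => (y : X)) '' {y | ∃ u ∈ B t, (y : X) ∈ near Γ c u}).encard
        = {y : MulAction.orbit G x | ∃ u ∈ B t, (y : X) ∈ near Γ c u}.encard :=
      Subtype.val_injective.encard_image _
    rw [← h5]
    refine Set.encard_le_encard ?_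
    rintro _ ⟨y, ⟨u, hu, hy⟩, rfl⟩
    exact Set.mem_biUnion hu hy
  · rintro ⟨y, hy⟩
    show (T.induce {t | ∃ u ∈ B t, y ∈ near Γ c u}).Connected
    obtain ⟨t0, ht0⟩ := (hconn y).nonempty
    have h6 : ∀ a : {t | ∃ u ∈ B t, y ∈ near Γ c u},
        (T.induce {t | ∃ u ∈ B t, y ∈ near Γ c u}).Reachable a ⟨t0, y, ht0, near_self Γ c y⟩ := by
      rintro ⟨t, u, hu, p, hp⟩
      exact reach_walk hconn hcov c ht0 p hp t hu
    exact (SimpleGraph.connected_iff _).2 ⟨fun a b => (h6 a).trans (h6 b).symm, ⟨⟨t0, y, ht0, near_self Γ c y⟩⟩⟩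
  · rintro s hs ⟨y, hy⟩
    obtain ⟨t, ht⟩ := (hconn y).nonempty
    refine ⟨t, ⟨y, ht, near_self Γ c y⟩, ⟨y, ht, ?_⟩⟩
    exact hρ s hs y

end Vale.Agent.P192.H630
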